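import Vale.Agent.Lib.P033C.InpAll
import Vale.Agent.Lib.P110F.D1
import Vale.Agent.Lib.P110U.D5

/-!
# P033C: almost flat sign polynomials of every large length
-/

namespace Vale.Agent.P033C

open Filter Topology Vale.Agent.P110F Vale.Agent.P110T Vale.Agent.P110U

theorem frac_all (hI : InputAll) (hC : Correction) : ∀ η : ℝ, 0 < η → ∀ᶠ N : ℕ in atTop,
    ∃ b : ℕ → ℝ, (∀ k, |b k| ≤ 1) ∧ ∀ x : ℝ,
      |‖∑ k ∈ Finset.range N, (b k : ℂ) * e1 ((k : ℝ) * x)‖ - Real.sqrt N| ≤ η * Real.sqrt N := by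
  intro η hη
  set δ : ℝ := η / 4 with hδ
  set μ : ℝ := min (η / 12) (1 / 8) with hμ
  have hδ0 : 0 < δ := by positivity
  have hμ0 : 0 < μ := by rw [hμ]; exact lt_min (by positivity) (by norm_num)
  have hμ1 : μ < 1 / 4 := lt_of_le_of_lt (min_le_right _ _) (by norm_num)
  have hμ2 : μ ≤ η / 12 := min_le_left _ _
  obtain ⟨ε, η', K, hε, hη', hK, N₁, h1⟩ := hC (η / 4) δ μ (by positivity) hδ0 hμ0 hμ1
  filter_upwards [hI μ ε η' K hμ0 hμ1 hε hη' hK, eventually_ge_atTop N₁] with N hNe hN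
  obtain ⟨n, b, hb⟩ := hNe
  obtain ⟨t, ht, hx⟩ := h1 N hN n b hb
  refine ⟨fun k => (b k + t k) / (1 + δ), fun k => ?_, fun x => ?_⟩
  · rw [abs_div, abs_of_pos (show (0 : ℝ) < 1 + δ by linarith), div_le_one (by linarith)]
    have h2 := hb.abs_le k
    have h3 := ht k
    exact (abs_add_le _ _).trans (by linarith)
  · have h2 : ∑ k ∈ Finset.range N, (((b k + t k) / (1 + δ) : ℝ) : ℂ) * e1 ((k : ℝ) * x) =
        ((1 + δ : ℝ) : ℂ)⁻¹ * pol N (fun k => b k + t k) x := by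
      unfold pol
      rw [Finset.mul_sum]
      refine Finset.sum_congr rfl fun k _ => ?_
      rw [Complex.ofReal_div, div_eq_mul_inv]
      ring
    have h3 : ‖((1 + δ : ℝ) : ℂ)⁻¹‖ = (1 + δ)⁻¹ := by
      rw [norm_inv, Complex.norm_real, Real.norm_of_nonneg (by linarith)]
    simp only
    rw [h2, norm_mul, h3]
    have hs : 0 ≤ Real.sqrt N := Real.sqrt_nonneg _
    have h4 := abs_le.1 (hx x)
    have h5 : Real.sqrt n ≤ Real.sqrt N := Real.sqrt_le_sqrt (by exact_mod_cast hb.le)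
    have h6 : (1 - 3 * μ) * Real.sqrt N ≤ Real.sqrt n := by
      have h7 : 0 ≤ 1 - 3 * μ := by linarith
      refine Real.le_sqrt_of_sq_le ?_
      rw [mul_pow, Real.sq_sqrt (Nat.cast_nonneg _)]
      refine le_trans ?_ hb.ge
      have h8 : (0 : ℝ) ≤ N := Nat.cast_nonneg _
      have h9 : (1 - 3 * μ) ^ 2 ≤ 1 - 3 * μ := by nlinarith
      exact mul_le_mul_of_nonneg_right h9 h8
    set F := ‖pol N (fun k => b k + t k) x‖ with hF
    have hF0 : 0 ≤ F := norm_nonneg _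
    have h10 : (1 + δ)⁻¹ ≤ 1 := inv_le_one_of_one_le₀ (by linarith)
    have h11 : (1 + δ)⁻¹ * (1 + δ) = 1 := inv_mul_cancel₀ (by linarith)
    have h12 : 0 < (1 + δ)⁻¹ := inv_pos.2 (by linarith)
    set c := (1 + δ)⁻¹ with hc
    have h13 : 1 - δ ≤ c := by nlinarith
    have h14 : 1 - δ - 3 * μ ≤ c * (1 - 3 * μ) := by nlinarith [mul_pos hδ0 hμ0]
    have h15 : c * ((1 - 3 * μ) * Real.sqrt N) ≤ c * Real.sqrt n :=
      mul_le_mul_of_nonneg_left h6 h12.le
    have h16 : (1 - δ - 3 * μ) * Real.sqrt N ≤ c * (1 - 3 * μ) * Real.sqrt N :=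
      mul_le_mul_of_nonneg_right h14 hs
    have h17 : 0 ≤ η / 4 * Real.sqrt N := by positivity
    rw [abs_le]
    constructor
    · have h18 : c * (Real.sqrt n - η / 4 * Real.sqrt N) ≤ c * F :=
        mul_le_mul_of_nonneg_left (by linarith [h4.1]) h12.le
      have h19 : c * (η / 4 * Real.sqrt N) ≤ η / 4 * Real.sqrt N := by nlinarith
      have h20 : (η - δ - 3 * μ - η / 4) * Real.sqrt N ≥ 0 := mul_nonneg (by linarith) hs
      nlinarith
    · have h18 : c * F ≤ c * (Real.sqrt n + η / 4 * Real.sqrt N) :=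
        mul_le_mul_of_nonneg_left (by linarith [h4.2]) h12.le
      have h19 : c * (Real.sqrt n + η / 4 * Real.sqrt N) ≤ Real.sqrt n + η / 4 * Real.sqrt N := by
        have h21 : 0 ≤ Real.sqrt n + η / 4 * Real.sqrt N := by positivity
        nlinarith
      have h20 : (η - η / 4) * Real.sqrt N ≥ 0 := mul_nonneg (by linarith) hs
      nlinarith


theorem round_all (H : ∀ η : ℝ, 0 < η → ∀ᶠ N : ℕ in atTop,
    ∃ b : ℕ → ℝ, (∀ k, |b k| ≤ 1) ∧ ∀ x : ℝ,
      |‖∑ k ∈ Finset.range N, (b k : ℂ) * e1 ((k : ℝ) * x)‖ - Real.sqrt N| ≤ η * Real.sqrt N) :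
    ∀ c : ℝ, 0 < c → ∀ᶠ N : ℕ in atTop, ∃ s : ℕ → ℝ, (∀ k, s k = 1 ∨ s k = -1) ∧
      ∀ x : ℝ, (1 - c) * Real.sqrt N ≤ ‖∑ k ∈ Finset.range N, (s k : ℂ) * e1 ((k : ℝ) * x)‖ ∧
        ‖∑ k ∈ Finset.range N, (s k : ℂ) * e1 ((k : ℝ) * x)‖ ≤ (1 + c) * Real.sqrt N := by
  intro c hc
  obtain ⟨δ, hδ, N₁, hround⟩ := round_poly (η := c / 2) (by positivity)
  filter_upwards [H (min (min (c / 2) (δ / 2)) 1) (by positivity), eventually_ge_atTop N₁]
    with N hNe hN1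
  obtain ⟨b, hb1, hb⟩ := hNe
  set η : ℝ := min (min (c / 2) (δ / 2)) 1 with hη
  have hη0 : 0 < η := by positivity
  have hηc : η ≤ c / 2 := (min_le_left _ _).trans (min_le_left _ _)
  have hηδ : η ≤ δ / 2 := (min_le_left _ _).trans (min_le_right _ _)
  have hη1 : η ≤ 1 := min_le_right _ _
  have hsq : Real.sqrt N * Real.sqrt N = N := Real.mul_self_sqrt (Nat.cast_nonneg N)
  have hs0 : 0 ≤ Real.sqrt N := Real.sqrt_nonneg _
  -- Parseval
  have hpars := integral_normSq_poly N (fun k => (b k : ℂ))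
  have hlow : (1 - 2 * η) * N ≤ ∑ k ∈ Finset.range N, b k ^ 2 := by
    have h1 : ∑ j ∈ Finset.range N, ‖((b j : ℝ) : ℂ)‖ ^ 2 = ∑ k ∈ Finset.range N, b k ^ 2 := by
      refine Finset.sum_congr rfl fun k _ => ?_
      rw [Complex.norm_real, Real.norm_eq_abs, sq_abs]
    rw [← h1, ← hpars]
    have hcont : Continuous fun x : ℝ => ‖∑ j ∈ Finset.range N, ((b j : ℝ) : ℂ) * e1 (j * x)‖ ^ 2 := by
      refine (continuous_norm.comp (continuous_finsetSum _ fun j _ => ?_)).pow 2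
      exact continuous_const.mul (continuous_e1.comp (continuous_const.mul continuous_id))
    have hmono : ∫ x in (0 : ℝ)..1, ((1 - 2 * η) * (N : ℝ)) ≤
        ∫ x in (0 : ℝ)..1, ‖∑ j ∈ Finset.range N, ((b j : ℝ) : ℂ) * e1 (j * x)‖ ^ 2 := by
      refine intervalIntegral.integral_mono_on zero_le_one (by simp) (hcont.intervalIntegrable _ _)
        fun x _ => ?_
      have h2 := (abs_le.mp (hb x)).1
      have h3 : (1 - η) * Real.sqrt N ≤
          ‖∑ j ∈ Finset.range N, ((b j : ℝ) : ℂ) * e1 ((j : ℝ) * x)‖ := by linarith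
      have h4 : 0 ≤ (1 - η) * Real.sqrt N := mul_nonneg (by linarith) hs0
      have h5 := mul_self_le_mul_self h4 h3
      have h6 : (1 - 2 * η) * (N : ℝ) ≤ ((1 - η) * Real.sqrt N) * ((1 - η) * Real.sqrt N) := by
        have : ((1 - η) * Real.sqrt N) * ((1 - η) * Real.sqrt N) = (1 - η) ^ 2 * N := by
          linear_combination (1 - η) ^ 2 * hsq
        rw [this]
        have hNn : (0 : ℝ) ≤ N := Nat.cast_nonneg N
        nlinarith [mul_nonneg (sq_nonneg η) hNn]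
      rw [sq]
      exact h6.trans h5
    simpa using hmono
  have hsum : ∑ j ∈ Finset.range N, (1 - |b j|) ≤ δ * N := by
    have h1 : ∑ j ∈ Finset.range N, (1 - |b j|) ≤ ∑ j ∈ Finset.range N, (1 - b j ^ 2) := by
      refine Finset.sum_le_sum fun j _ => ?_
      have h2 := hb1 j
      have h3 := abs_nonneg (b j)
      have h4 : b j ^ 2 = |b j| ^ 2 := (sq_abs _).symm
      nlinarith
    have h2 : ∑ j ∈ Finset.range N, (1 - b j ^ 2) = N - ∑ j ∈ Finset.range N, b j ^ 2 := by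
      rw [Finset.sum_sub_distrib]
      simp
    have hNn : (0 : ℝ) ≤ N := Nat.cast_nonneg N
    nlinarith [mul_le_mul_of_nonneg_right hηδ hNn]
  obtain ⟨a, ha, hr⟩ := hround N hN1 b hb1 hsum
  refine ⟨a, ha, fun x => ?_⟩
  have hsplit : ∑ k ∈ Finset.range N, (a k : ℂ) * e1 ((k : ℝ) * x) =
      (∑ k ∈ Finset.range N, ((a k - b k : ℝ) : ℂ) * e1 ((k : ℝ) * x)) +
        ∑ k ∈ Finset.range N, (b k : ℂ) * e1 ((k : ℝ) * x) := by
    rw [← Finset.sum_add_distrib]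
    refine Finset.sum_congr rfl fun k _ => ?_
    push_cast
    ring
  have h1 := hr x
  have h2 := abs_le.mp (hb x)
  have h3 : η * Real.sqrt N ≤ c / 2 * Real.sqrt N := mul_le_mul_of_nonneg_right hηc hs0
  constructor
  · have h4 : ‖∑ k ∈ Finset.range N, (b k : ℂ) * e1 ((k : ℝ) * x)‖ ≤
        ‖∑ k ∈ Finset.range N, (a k : ℂ) * e1 ((k : ℝ) * x)‖ +
          ‖∑ k ∈ Finset.range N, ((a k - b k : ℝ) : ℂ) * e1 ((k : ℝ) * x)‖ := by
      have h5 : ∑ k ∈ Finset.range N, (b k : ℂ) * e1 ((k : ℝ) * x) =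
          ∑ k ∈ Finset.range N, (a k : ℂ) * e1 ((k : ℝ) * x) -
            ∑ k ∈ Finset.range N, ((a k - b k : ℝ) : ℂ) * e1 ((k : ℝ) * x) := by
        rw [hsplit]; ring
      rw [h5]
      exact norm_sub_le _ _
    have h6 := h2.1
    nlinarith
  · rw [hsplit]
    refine (norm_add_le _ _).trans ?_
    have h6 := h2.2
    nlinarith


end Vale.Agent.P033C
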