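import Vale.Agent.Lib.P033C.All15
import Vale.Agent.Lib.P033C.RoundAll

/-!
# P033C: almost flat sign polynomials of every large length, from the correction theorem
-/

namespace Vale.Agent.P033C

open Filter Topology Vale.Agent.P110F Vale.Agent.P110T

theorem flat_all (hC : Correction) : ∀ c : ℝ, 0 < c → ∀ᶠ N : ℕ in atTop,
    ∃ s : ℕ → ℝ, (∀ k, s k = 1 ∨ s k = -1) ∧
      ∀ x : ℝ, (1 - c) * Real.sqrt N ≤ ‖∑ k ∈ Finset.range N, (s k : ℂ) * e1 ((k : ℝ) * x)‖ ∧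
        ‖∑ k ∈ Finset.range N, (s k : ℂ) * e1 ((k : ℝ) * x)‖ ≤ (1 + c) * Real.sqrt N :=
  round_all (frac_all (inputAll ev_all) hC)

end Vale.Agent.P033C
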