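import Vale.Agent.Lib.P033C.Pad
import Vale.Agent.Lib.P110T.Iface

/-!
# P033C: the input of the completion step at every large length
-/

namespace Vale.Agent.P033C

open Filter Topology Vale.Agent.P110F Vale.Agent.P110T

private noncomputable def sh (s : ℕ) (b : ℕ → ℝ) (k : ℕ) : ℝ := if s ≤ k then b (k - s) else 0

private theorem sh_add (s : ℕ) (b : ℕ → ℝ) (k : ℕ) : sh s b (s + k) = b k := by
  unfold sh
  rw [if_pos (Nat.le_add_right _ _), Nat.add_sub_cancel_left]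

private theorem sum_sh {M : Type*} [AddCommMonoid M] {n s N : ℕ} (hN : s + n ≤ N) (b : ℕ → ℝ)
    (hb : ∀ k, n ≤ k → b k = 0) (F : ℕ → ℝ → M) (hF : ∀ k, F k 0 = 0) :
    ∑ k ∈ Finset.range N, F k (sh s b k) = ∑ k ∈ Finset.range n, F (s + k) (b k) := by
  obtain ⟨d, rfl⟩ : ∃ d, N = s + n + d := ⟨N - (s + n), by omega⟩
  rw [Finset.sum_range_add, Finset.sum_range_add]
  have h1 : ∑ k ∈ Finset.range s, F k (sh s b k) = 0 := by
    refine Finset.sum_eq_zero fun k hk => ?_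
    rw [Finset.mem_range] at hk
    unfold sh
    rw [if_neg (by omega), hF]
  have h2 : ∑ x ∈ Finset.range d, F (s + n + x) (sh s b (s + n + x)) = 0 := by
    refine Finset.sum_eq_zero fun k _ => ?_
    rw [add_assoc s n k, sh_add, hb _ (Nat.le_add_right _ _), hF]
  rw [h1, h2, zero_add, add_zero]
  exact Finset.sum_congr rfl fun k _ => by rw [sh_add]

private theorem pol_sh {n s N : ℕ} (hN : s + n ≤ N) (b : ℕ → ℝ) (hb : ∀ k, n ≤ k → b k = 0) (x : ℝ) :
    pol N (sh s b) x = e1 ((s : ℝ) * x) * pol n b x := by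
  unfold pol
  rw [sum_sh hN b hb (fun k c => (c : ℂ) * e1 ((k : ℝ) * x)) (fun k => by simp),
    Finset.mul_sum]
  refine Finset.sum_congr rfl fun k _ => ?_
  rw [show (((s + k : ℕ) : ℝ) * x) = (s : ℝ) * x + (k : ℝ) * x by push_cast; ring, e1_add]
  ring

/-- the input at the length `N = n + 2 s` -/
theorem inp_of_PP {μ ε η' K η₁ δ₁ : ℝ} {n s : ℕ} (_hε : 0 < ε) (hε1 : ε ≤ 1)
    (hη' : 0 < η') (hK : 0 < K) (hn : 0 < n) (hη₁ : 0 < η₁) (hδ₁ : 0 < δ₁) (h41 : η₁ ≤ ε / 8)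
    (h42 : δ₁ ≤ ε / 8) (hs : μ * ((n + 2 * s : ℕ) : ℝ) ≤ s)
    (hs2 : (1 - 3 * μ) * ((n + 2 * s : ℕ) : ℝ) ≤ n) (h : PP η₁ δ₁ η' K n) :
    ∃ b : ℕ → ℝ, Inp μ ε η' K (n + 2 * s) n b := by
  obtain ⟨c, h1, h2, h3, h4⟩ := h
  have hle : s + n ≤ n + 2 * s := by omega
  have hn0 : (0 : ℝ) < n := by exact_mod_cast hn
  have hN : ((n + 2 * s : ℕ) : ℝ) = n + 2 * s := by push_cast; ring
  set q : ℝ := (1 + η₁)⁻¹ with hq
  have hq0 : 0 < q := by positivity
  have hq1 : q ≤ 1 := inv_le_one_of_one_le₀ (by linarith)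
  have hqe : q * (1 + η₁) = 1 := inv_mul_cancel₀ (by linarith)
  have hq2 : 1 - η₁ ≤ q := by nlinarith
  set b : ℕ → ℝ := fun k => if k < n then q * c k else 0 with hb
  have hzero : ∀ k, n ≤ k → b k = 0 := by
    intro k hk
    rw [hb]
    simp only
    rw [if_neg (by omega)]
  have hpol : ∀ x, pol n b x = (q : ℂ) * ∑ j ∈ Finset.range n, (c j : ℂ) * e1 ((j : ℝ) * x) := by
    intro x
    unfold pol
    rw [Finset.mul_sum]
    refine Finset.sum_congr rfl fun j hj => ?_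
    rw [hb]
    simp only
    rw [if_pos (Finset.mem_range.1 hj)]
    push_cast
    ring
  have hP : ∀ x, pol (n + 2 * s) (sh s b) x = e1 ((s : ℝ) * x) * pol n b x := fun x =>
    pol_sh hle b hzero x
  have hsq : 0 ≤ Real.sqrt n := Real.sqrt_nonneg _
  have hnq : ‖(q : ℂ)‖ = q := by rw [Complex.norm_real, Real.norm_of_nonneg hq0.le]
  refine ⟨sh s b, by omega, hs2, ?_, ?_, ?_, ?_, ?_⟩
  · intro k
    unfold sh
    split_ifs with h
    · rw [hb]
      simp only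
      split_ifs with h5
      · rw [abs_mul, abs_of_pos hq0]
        have := h1 (k - s)
        have h6 := abs_nonneg (c (k - s))
        nlinarith
      · simp
    · simp
  · intro k hk
    unfold sh at hk
    split_ifs at hk with h
    · have h5 : k - s < n := by
        by_contra h6
        exact hk (hzero _ (by omega))
      have h6 : (s : ℝ) ≤ k := by exact_mod_cast h
      have h7 : (k : ℝ) ≤ n + s := by
        have : k ≤ n + s := by omega
        exact_mod_cast this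
      constructor
      · linarith
      · have h8 : (1 - μ) * ((n + 2 * s : ℕ) : ℝ) = n + 2 * s - μ * ((n + 2 * s : ℕ) : ℝ) := by
          rw [sub_mul, one_mul, hN]
        rw [h8]
        linarith
    · exact absurd rfl hk
  · intro x
    rw [hP, norm_mul, norm_e1, one_mul, hpol, norm_mul, hnq]
    calc q * ‖∑ j ∈ Finset.range n, (c j : ℂ) * e1 ((j : ℝ) * x)‖ ≤
          q * ((1 + η₁) * Real.sqrt n) := mul_le_mul_of_nonneg_left (h3 x) hq0.le
      _ = (q * (1 + η₁)) * Real.sqrt n := by ring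
      _ = Real.sqrt n := by rw [hqe, one_mul]
  · have e1' : ∑ k ∈ Finset.range (n + 2 * s), sh s b k ^ 2 = ∑ k ∈ Finset.range n, b k ^ 2 :=
      sum_sh hle b hzero (fun _ c => c ^ 2) (fun _ => by norm_num)
    have e2' : ∑ k ∈ Finset.range n, b k ^ 2 = q ^ 2 * ∑ k ∈ Finset.range n, c k ^ 2 := by
      rw [Finset.mul_sum]
      refine Finset.sum_congr rfl fun j hj => ?_
      rw [hb]
      simp only
      rw [if_pos (Finset.mem_range.1 hj)]
      ring
    have e3' : (1 - 2 * δ₁) * n ≤ ∑ k ∈ Finset.range n, c k ^ 2 := by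
      have h5 : ∑ k ∈ Finset.range n, (1 - 2 * (1 - |c k|)) ≤ ∑ k ∈ Finset.range n, c k ^ 2 := by
        refine Finset.sum_le_sum fun k _ => ?_
        nlinarith [sq_nonneg (|c k| - 1), sq_abs (c k)]
      rw [Finset.sum_sub_distrib, ← Finset.mul_sum] at h5
      simp only [Finset.sum_const, Finset.card_range, nsmul_eq_mul, mul_one] at h5
      nlinarith
    rw [e1', e2']
    have h6 : (1 - 2 * η₁) ≤ q ^ 2 := by
      have h7 : 0 ≤ 1 - η₁ := by linarith
      nlinarith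
    have h8 : 0 ≤ 1 - 2 * δ₁ := by linarith
    have h9 : 0 ≤ 1 - 2 * η₁ := by linarith
    have h10 : (1 - ε) ≤ (1 - 2 * η₁) * (1 - 2 * δ₁) := by nlinarith [mul_pos hη₁ hδ₁]
    calc (1 - ε) * (n : ℝ) ≤ ((1 - 2 * η₁) * (1 - 2 * δ₁)) * n :=
          mul_le_mul_of_nonneg_right h10 hn0.le
      _ = (1 - 2 * η₁) * ((1 - 2 * δ₁) * n) := by ring
      _ ≤ q ^ 2 * ∑ k ∈ Finset.range n, c k ^ 2 := mul_le_mul h6 e3' (by positivity) (by positivity)
  · intro x₀
    obtain ⟨κ, k1, k2, k3⟩ := h4 x₀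
    refine ⟨κ + s, ?_, ?_, fun x hx => ?_⟩
    · linarith
    · have h8 : (1 - μ) * ((n + 2 * s : ℕ) : ℝ) = n + 2 * s - μ * ((n + 2 * s : ℕ) : ℝ) := by
        rw [sub_mul, one_mul, hN]
      rw [h8]
      linarith
    · have h5 : |x - x₀| ≤ K / n := by
        refine hx.trans (div_le_div_of_nonneg_left hK.le hn0 ?_)
        rw [hN]
        have : (0 : ℝ) ≤ s := Nat.cast_nonneg _
        linarith
      have h6 := k3 x h5
      rw [hP, hP, hpol, hpol]
      have h7 : e1 ((s : ℝ) * x₀) * e1 ((κ + s) * (x - x₀)) =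
          e1 ((s : ℝ) * x) * e1 (κ * (x - x₀)) := by
        rw [← e1_add, ← e1_add]
        congr 1
        ring
      have h8 : e1 ((s : ℝ) * x) * ((q : ℂ) * ∑ j ∈ Finset.range n, (c j : ℂ) * e1 ((j : ℝ) * x)) -
          e1 ((s : ℝ) * x₀) * ((q : ℂ) * ∑ j ∈ Finset.range n, (c j : ℂ) * e1 ((j : ℝ) * x₀)) *
            e1 ((κ + s) * (x - x₀)) =
          e1 ((s : ℝ) * x) * ((q : ℂ) * (∑ j ∈ Finset.range n, (c j : ℂ) * e1 ((j : ℝ) * x) -
            (∑ j ∈ Finset.range n, (c j : ℂ) * e1 ((j : ℝ) * x₀)) * e1 (κ * (x - x₀)))) := by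
        calc _ = e1 ((s : ℝ) * x) * ((q : ℂ) * ∑ j ∈ Finset.range n, (c j : ℂ) * e1 ((j : ℝ) * x)) -
            (q : ℂ) * (∑ j ∈ Finset.range n, (c j : ℂ) * e1 ((j : ℝ) * x₀)) *
            (e1 ((s : ℝ) * x₀) * e1 ((κ + s) * (x - x₀))) := by ring
          _ = _ := by rw [h7]; ring
      rw [h8, norm_mul, norm_e1, one_mul, norm_mul, hnq]
      have h9 : 0 ≤ η' * Real.sqrt n := by positivity
      have h10 := norm_nonneg (∑ j ∈ Finset.range n, (c j : ℂ) * e1 ((j : ℝ) * x) -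
            (∑ j ∈ Finset.range n, (c j : ℂ) * e1 ((j : ℝ) * x₀)) * e1 (κ * (x - x₀)))
      calc _ ≤ 1 * _ := mul_le_mul_of_nonneg_right hq1 h10
        _ ≤ _ := by rw [one_mul]; exact h6

/-- the input at every large length -/
def InputAll : Prop := ∀ μ ε η' K : ℝ, 0 < μ → μ < 1 / 4 → 0 < ε → 0 < η' → 0 < K →
  ∀ᶠ N : ℕ in atTop, ∃ (n : ℕ) (b : ℕ → ℝ), Inp μ ε η' K N n b

theorem inputAll (H : ∀ η δ ε K : ℝ, 0 < η → 0 < δ → 0 < ε → 0 < K →
    ∀ᶠ N : ℕ in atTop, PP η δ ε K N) : InputAll := by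
  intro μ ε η' K hμ hμ1 hε hη' hK
  have hε' : 0 < min ε 1 := lt_min hε one_pos
  have h1 := H (min ε 1 / 8) (min ε 1 / 8) η' K (by positivity) (by positivity) hη' hK
  obtain ⟨n₀, hn₀⟩ := eventually_atTop.1 h1
  obtain ⟨N₁, hN₁⟩ := exists_nat_ge (2 / μ)
  refine eventually_atTop.2 ⟨max (max N₁ (4 * n₀ + 4)) 1, fun N hN => ?_⟩
  have hNN₁ : N₁ ≤ N := ((le_max_left _ _).trans (le_max_left _ _)).trans hN
  have hNn₀ : 4 * n₀ + 4 ≤ N := ((le_max_right _ _).trans (le_max_left _ _)).trans hN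
  have hN0 : (0 : ℝ) < N := by exact_mod_cast (show 0 < N by omega)
  have hNμ : 2 ≤ μ * N := by
    have h2 : 2 / μ ≤ N := hN₁.trans (by exact_mod_cast hNN₁)
    rw [div_le_iff₀ hμ] at h2
    linarith
  set s : ℕ := ⌈μ * N⌉₊ with hs
  have hs1 : μ * N ≤ s := Nat.le_ceil _
  have hs2 : (s : ℝ) < μ * N + 1 := Nat.ceil_lt_add_one (by positivity)
  have hs3 : (2 * s : ℝ) ≤ 3 * μ * N := by linarith
  have hs4 : 2 * s ≤ N := by
    have : (2 * s : ℝ) ≤ N := by nlinarith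
    exact_mod_cast this
  obtain ⟨n, hnN⟩ : ∃ n, n + 2 * s = N := ⟨N - 2 * s, by omega⟩
  have hnr : (N : ℝ) = n + 2 * s := by
    rw [← hnN]
    push_cast
    ring
  have h3 : (1 - 3 * μ) * (N : ℝ) ≤ n := by
    rw [sub_mul, one_mul]
    linarith
  have hn1 : n₀ ≤ n := by
    have h4 : (1 / 4 : ℝ) * N ≤ n := by
      refine le_trans ?_ h3
      exact mul_le_mul_of_nonneg_right (by linarith) hN0.le
    have h5 : ((4 * n₀ + 4 : ℕ) : ℝ) ≤ N := by exact_mod_cast hNn₀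
    push_cast at h5
    have h6 : (n₀ : ℝ) + 1 ≤ n := by linarith
    have h7 : n₀ + 1 ≤ n := by exact_mod_cast h6
    omega
  have hn0 : 0 < n := by
    have h4 : 0 < (1 - 3 * μ) * (N : ℝ) := mul_pos (by linarith) hN0
    exact_mod_cast h4.trans_le h3
  obtain ⟨b, hb⟩ := inp_of_PP (s := s) hε' (min_le_right _ _) hη' hK hn0 (by positivity)
    (by positivity) le_rfl le_rfl (by rw [hnN]; exact hs1) (by rw [hnN]; exact h3) (hn₀ n hn1)
  rw [hnN] at hb
  refine ⟨n, b, hb.le, hb.ge, hb.abs_le, hb.supp, hb.sup, ?_, hb.pure⟩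
  refine le_trans ?_ hb.energy
  have h2 : min ε 1 ≤ ε := min_le_left _ _
  have h4 : (0 : ℝ) ≤ n := Nat.cast_nonneg _
  nlinarith

end Vale.Agent.P033C
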