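import Vale.Agent.Lib.P110F.Defs

/-!
# P033C: from the lengths `R (4 L)^n` to every large length
-/

namespace Vale.Agent.P033C

open Filter Topology Vale.Agent.P110F

/-- real coefficients in `[-1, 1]`, mostly near `±1`, small maximum, local purity -/
def PP (η δ ε K : ℝ) (N : ℕ) : Prop :=
  ∃ c : ℕ → ℝ, (∀ j, |c j| ≤ 1) ∧
    ∑ j ∈ Finset.range N, (1 - |c j|) ≤ δ * N ∧
    (∀ x : ℝ, ‖∑ j ∈ Finset.range N, (c j : ℂ) * e1 ((j : ℝ) * x)‖ ≤
      (1 + η) * Real.sqrt N) ∧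
    ∀ x₀ : ℝ, ∃ κ : ℝ, 0 ≤ κ ∧ κ ≤ N ∧ ∀ x : ℝ, |x - x₀| ≤ K / N →
      ‖(∑ j ∈ Finset.range N, (c j : ℂ) * e1 ((j : ℝ) * x)) -
        (∑ j ∈ Finset.range N, (c j : ℂ) * e1 ((j : ℝ) * x₀)) * e1 (κ * (x - x₀))‖ ≤
        ε * Real.sqrt N

theorem PP_pad {η δ ε K : ℝ} {M N : ℕ} (hη : 0 < η) (hδ : 0 < δ) (hε : 0 < ε) (hK : 0 < K)
    (hM : 0 < M) (hMN : M ≤ N) (hr : (1 - δ) * N ≤ M) (h : PP η δ ε K M) :
    PP η (2 * δ) ε K N := by
  obtain ⟨c, h1, h2, h3, h4⟩ := h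
  have hs : ∀ x : ℝ, ∑ j ∈ Finset.range N, ((if j < M then c j else 0 : ℝ) : ℂ) * e1 ((j : ℝ) * x) =
      ∑ j ∈ Finset.range M, (c j : ℂ) * e1 ((j : ℝ) * x) := by
    intro x
    rw [← Finset.sum_subset (Finset.range_mono hMN)]
    · refine Finset.sum_congr rfl fun j hj => ?_
      rw [if_pos (Finset.mem_range.1 hj)]
    · intro j _ hj
      rw [if_neg (fun h => hj (Finset.mem_range.2 h))]
      simp
  have hMN' : (M : ℝ) ≤ N := by exact_mod_cast hMN
  have hM' : (0 : ℝ) < M := by exact_mod_cast hM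
  have hsq : Real.sqrt M ≤ Real.sqrt N := Real.sqrt_le_sqrt hMN'
  refine ⟨fun j => if j < M then c j else 0, fun j => ?_, ?_, fun x => ?_, fun x₀ => ?_⟩
  · simp only
    split_ifs
    · exact h1 j
    · simp
  · obtain ⟨d, rfl⟩ : ∃ d, N = M + d := ⟨N - M, by omega⟩
    rw [Finset.sum_range_add]
    have e1' : ∑ j ∈ Finset.range M, (1 - |if j < M then c j else 0|) =
        ∑ j ∈ Finset.range M, (1 - |c j|) := by
      refine Finset.sum_congr rfl fun j hj => ?_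
      rw [if_pos (Finset.mem_range.1 hj)]
    have e2' : ∑ j ∈ Finset.range d, (1 - |if M + j < M then c (M + j) else 0|) = d := by
      rw [Finset.sum_congr rfl (g := fun _ => (1 : ℝ))]
      · simp
      · intro j _
        rw [if_neg (by omega)]
        simp
    rw [e1', e2']
    push_cast at hr ⊢
    nlinarith
  · rw [hs]
    refine (h3 x).trans ?_
    exact mul_le_mul_of_nonneg_left hsq (by linarith)
  · obtain ⟨κ, k1, k2, k3⟩ := h4 x₀
    refine ⟨κ, k1, k2.trans hMN', fun x hx => ?_⟩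
    rw [hs, hs]
    refine (k3 x (hx.trans ?_)).trans ?_
    · exact div_le_div_of_nonneg_left hK.le hM' hMN'
    · exact mul_le_mul_of_nonneg_left hsq hε.le

/-- from the special lengths to all lengths -/
theorem ev_N {η δ ε K : ℝ} (hη : 0 < η) (hδ : 0 < δ) (hε : 0 < ε) (hK : 0 < K) {R n : ℕ}
    (hR : 0 < R) (hn : 0 < n) (h : ∀ᶠ L : ℕ in atTop, PP η (δ / 2) ε K (R * (4 * L) ^ n)) :
    ∀ᶠ N : ℕ in atTop, PP η δ ε K N := by
  obtain ⟨L₀, hL₀⟩ := eventually_atTop.1 h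
  obtain ⟨L₁, hL₁⟩ := exists_nat_ge (2 * (n : ℝ) / δ)
  set L₂ : ℕ := max (max L₀ L₁) 1 with hL₂
  refine eventually_atTop.2 ⟨R * (4 * L₂) ^ n, fun N hN => ?_⟩
  -- the greatest admissible L
  set L : ℕ := Nat.findGreatest (fun L => R * (4 * L) ^ n ≤ N) N with hL
  have hLsp : R * (4 * L) ^ n ≤ N :=
    Nat.findGreatest_spec (P := fun L => R * (4 * L) ^ n ≤ N) (m := 0) (Nat.zero_le _) (by
      rw [mul_zero, zero_pow hn.ne', mul_zero]
      exact Nat.zero_le _)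
  have hself : ∀ L : ℕ, L ≤ R * (4 * L) ^ n := by
    intro L
    rcases Nat.eq_zero_or_pos L with h0 | h0
    · subst h0
      exact Nat.zero_le _
    · calc L ≤ 4 * L := by omega
        _ ≤ (4 * L) ^ n := Nat.le_self_pow hn.ne' _
        _ ≤ R * (4 * L) ^ n := Nat.le_mul_of_pos_left _ hR
  have hL2L : L₂ ≤ L := Nat.le_findGreatest ((hself L₂).trans hN) hN
  have hgt : N < R * (4 * (L + 1)) ^ n := by
    by_contra hc
    push Not at hc
    have h1 : L + 1 ≤ L :=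
      Nat.le_findGreatest (P := fun L => R * (4 * L) ^ n ≤ N) ((hself (L + 1)).trans hc) hc
    omega
  have hL1 : 1 ≤ L := (le_max_right _ _).trans hL2L
  have hP := hL₀ L (((le_max_left _ _).trans (le_max_left _ _)).trans hL2L)
  have hLn : 2 * (n : ℝ) / δ ≤ L := by
    refine hL₁.trans ?_
    exact_mod_cast ((le_max_right _ _).trans (le_max_left _ _)).trans hL2L
  have hratio : (1 - δ / 2) * N ≤ ((R * (4 * L) ^ n : ℕ) : ℝ) := by
    have hLr : (1 : ℝ) ≤ L := by exact_mod_cast hL1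
    have hb : 1 - (n : ℝ) / (L + 1) ≤ ((L : ℝ) / (L + 1)) ^ n := by
      have h1 := one_add_mul_le_pow (a := -(1 / ((L : ℝ) + 1))) (by
        have : 1 / ((L : ℝ) + 1) ≤ 1 := by
          rw [div_le_one (by linarith)]
          linarith
        linarith) n
      have h2 : 1 + -(1 / ((L : ℝ) + 1)) = (L : ℝ) / (L + 1) := by
        field_simp
        ring
      rw [h2] at h1
      refine le_trans (le_of_eq ?_) h1
      ring
    have hb2 : 1 - δ / 2 ≤ 1 - (n : ℝ) / (L + 1) := by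
      have : (n : ℝ) / (L + 1) ≤ δ / 2 := by
        rw [div_le_div_iff₀ (by linarith) (by norm_num)]
        rw [div_le_iff₀ hδ] at hLn
        nlinarith
      linarith
    have hgt' : (N : ℝ) ≤ R * (4 * ((L : ℝ) + 1)) ^ n := by
      exact_mod_cast hgt.le
    have e : ((R * (4 * L) ^ n : ℕ) : ℝ) = ((L : ℝ) / (L + 1)) ^ n * (R * (4 * ((L : ℝ) + 1)) ^ n) := by
      push_cast
      rw [div_pow, mul_pow, mul_pow]
      have : ((L : ℝ) + 1) ^ n ≠ 0 := by positivity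
      field_simp
    rw [e]
    have hN0 : (0 : ℝ) ≤ N := Nat.cast_nonneg _
    calc (1 - δ / 2) * (N : ℝ) ≤ ((L : ℝ) / (L + 1)) ^ n * N :=
          mul_le_mul_of_nonneg_right (hb2.trans hb) hN0
      _ ≤ _ := mul_le_mul_of_nonneg_left hgt' (by positivity)
  have hpos : 0 < R * (4 * L) ^ n := by positivity
  have := PP_pad hη (half_pos hδ) hε hK hpos hLsp hratio hP
  rwa [mul_div_cancel₀ δ (two_ne_zero)] at this

end Vale.Agent.P033C
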